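import Vale.Agent.P073.Spec.Gauge

/-!
# P073: stronger form of `SpecCell`, for milestone 2
-/

open Set Metric Topology MeasureTheory Filter
open scoped ENNReal

namespace P073.Gauge

open Vale.Agent.P073.St (V)
open Vale.Agent.P073.AB
open P073.GB73 (Prot)
open P073.Net (dyc)

/-- **(CELL2)** GB in one good cell, all large `k₀`, with a general protected set `Z`. -/
def SpecCell2 : Prop :=
  ∀ (p θ M : ℝ), 1 ≤ p → 0 < θ → 0 < M → ∃ C > 0, ∀ k₁ : ℕ, 3 ≤ k₁ → ∃ K₀ : ℕ, ∀ k₀ ≥ K₀,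
    ∃ κ > 0, ∀ (Ω Λ : Set V) (v : V) (I : Set Idx) (D : DyCx Ω v I) (n₂ : ℕ) (z : Fin 3 → ℤ)
      (A : V → V) (L : V →L[ℝ] V) (h : ConHomeo Ω Λ), IsOpen Ω → IsOpen Λ → Part Ω v I →
      CellHyp p θ M κ k₁ k₀ n₂ Λ v I z A L h.toFun →
      ∀ Z : Set V, Prot D.K Z → Disjoint Z (interior (dyc v n₂ z)) →
      (∀ x ∈ Z, h.toFun x ∉ A '' shrink v n₂ z (1 / 2 ^ (n₂ + k₁ + k₀))) →
      ∃ h' : ConHomeo Ω Λ, CellOut p C k₁ n₂ v z A h'.toFun ∧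
        (∀ e : Idx × Fin 3, (∃ q ∈ I, EdgeOf e q) → ∀ x ∈ edge v e,
          (x ∉ interior (boxB v n₂ k₁ z) → h'.toFun x = h.toFun x) ∧
          (h'.toFun x ∈ h.toFun '' edge v e ∨
            h'.toFun x ∈ A '' shrink v n₂ z (1 / 2 ^ (n₂ + k₁ + k₀)))) ∧
        EqOn h'.toFun h.toFun Z

/-- **(PROT)** unions of cubes of the partition are protected sets (helper527) -/
def SpecProt : Prop :=
  ∀ (Ω : Set V) (v : V) (I : Set Idx), IsOpen Ω → Part Ω v I → ∀ D : DyCx Ω v I, ∀ I' ⊆ I,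
    Prot D.K (⋃ q ∈ I', dyc v q.1 q.2)

theorem specCell_of (hCx : SpecCx) (hP : SpecProt) (h2 : SpecCell2) : SpecCell := by
  intro p θ M hp hθ hM
  obtain ⟨C, hC, H⟩ := h2 p θ M hp hθ hM
  refine ⟨C, hC, fun k₁ hk₁ => ?_⟩
  obtain ⟨K₀, H⟩ := H k₁ hk₁
  obtain ⟨κ, hκ, H⟩ := H K₀ le_rfl
  refine ⟨K₀, κ, hκ, ?_⟩
  intro Ω Λ v I I' n₂ z A L h hΩ hΛ hI hyp hI' hd hf
  obtain ⟨D⟩ := hCx Ω v I hΩ hI
  obtain ⟨h', h1, h2, h3⟩ := H Ω Λ v I D n₂ z A L h hΩ hΛ hI hyp (⋃ q ∈ I', dyc v q.1 q.2)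
    (hP Ω v I hΩ hI D I' hI')
    (by
      rw [Set.disjoint_left]
      intro x hx hx'
      simp only [mem_iUnion] at hx
      obtain ⟨q, hq, hxq⟩ := hx
      exact Set.disjoint_left.1 (hd q hq) hxq hx')
    (by
      intro x hx
      simp only [mem_iUnion] at hx
      obtain ⟨q, hq, hxq⟩ := hx
      exact hf q hq x hxq)
  refine ⟨h', h1, h2, fun q hq x hx => h3 ?_⟩
  simp only [mem_iUnion]
  exact ⟨q, hq, hx⟩

end P073.Gauge
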