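import Vale.Agent.P073.PLS.Defs

/-!
# P073: the top of the proof

`Final` is the final statement. The topology part delivers `TopTT`, the block NET delivers
`Net.NetLp`; together they give `NetOut`, the only input of the analysis part from the topology of
general homeomorphisms.
-/

open Set Metric Topology MeasureTheory Filter
open scoped ENNReal

namespace P073.Top

open Vale.Agent.P073.St (V Mat euc IsHomeo IsBoundedDomain IsSobolev DiffeoApproximable)
open P073.PLS (Rat3)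
open P073.Net (Graph ACOn SizeFn SameCode TT NetLp)

/-- **The final statement.** For `1 ≤ p < 2` every `W^{1,p}` homeomorphism between bounded domains
of three-space is diffeomorphically approximable. -/
def Final : Prop :=
  ∀ (p : ℝ) (Ω Λ : Set V) (f : V → V) (F : V → Mat), 1 ≤ p → p < 2 →
    IsBoundedDomain Ω → IsBoundedDomain Λ → IsHomeo Ω Λ f → IsSobolev p Ω f F →
    DiffeoApproximable p Ω Λ f F

/-- `f` is absolutely continuous on the segments in `Ω` with rational end points relative to the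
origin `o`. -/
def RatAC (o : V) (Ω : Set V) (f : V → V) : Prop :=
  ∀ a ∈ Rat3 o, ∀ b ∈ Rat3 o, segment ℝ a b ⊆ Ω →
    ∃ D : ℝ → V, IntervalIntegrable D volume 0 1 ∧
      ∀ t ∈ Icc (0:ℝ) 1, f (a + t • (b - a)) = f a + ∫ s in (0:ℝ)..t, D s

/-- **Output of the topology part.** For almost every translation `v` of the dyadic tiling of the
target there is a conical homeomorphism with the same coding as `f` on the rational graph `G`. -/
def TopTT : Prop :=
  ∀ (Ω Λ : Set V) (f : V → V) (o : V), IsOpen Ω → IsConnected Ω → IsOpen Λ → IsHomeo Ω Λ f →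
    RatAC o Ω f → ∀ G : Graph Ω, (∀ i, G.a i ∈ Rat3 o ∧ G.b i ∈ Rat3 o) →
    ∀ ρ : V → ℝ, SizeFn Λ ρ → ∀ᵐ v : V, TT Ω Λ f G ρ v

/-- **Input of the analysis part**: conical homeomorphisms which approximate `f` in `W^{1,p}` on a
rational graph. -/
def NetOut : Prop :=
  ∀ (p : ℝ) (Ω Λ : Set V) (f : V → V) (o : V) (G : Graph Ω) (D : G.ι → ℝ → V), 1 ≤ p → p ≤ 2 →
    IsOpen Ω → IsConnected Ω → IsOpen Λ → IsHomeo Ω Λ f → RatAC o Ω f →
    (∀ i, G.a i ∈ Rat3 o ∧ G.b i ∈ Rat3 o) → ACOn G f D →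
    (∀ i, IntervalIntegrable (fun t => euc (D i t) ^ p) volume 0 1) →
    ∀ ε : G.ι → ℝ, (∀ i, 0 < ε i) →
    ∃ h : ConHomeo Ω Λ, ∀ i,
      (∀ t ∈ Icc (0:ℝ) 1, ‖h.toFun (G.e i t) - f (G.e i t)‖ ≤ ε i) ∧
      (∃ K : NNReal, LipschitzOnWith K (fun t => h.toFun (G.e i t)) (Icc 0 1)) ∧
      ∫⁻ t in Icc (0:ℝ) 1, ENNReal.ofReal
        (euc (deriv (fun s => h.toFun (G.e i s)) t - D i t) ^ p) ≤ ENNReal.ofReal (ε i)

theorem graph_e_mem {Ω : Set V} (G : Graph Ω) (i : G.ι) {t : ℝ} (ht : t ∈ Icc (0:ℝ) 1) :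
    G.e i t ∈ segment ℝ (G.a i) (G.b i) := by
  rw [segment_eq_image']
  exact ⟨t, ht, rfl⟩

/-- The coding on `G` determines the coding on every graph contained in `G`. -/
theorem sameCode_mono {Ω : Set V} {G G' : Graph Ω} {f h : V → V} {ρ : V → ℝ} {v : V}
    (hG : ∀ j : G'.ι, ∃ i : G.ι, segment ℝ (G'.a j) (G'.b j) ⊆ segment ℝ (G.a i) (G.b i))
    (H : SameCode G f h ρ v) : SameCode G' f h ρ v := by
  intro j t ht m z hz
  obtain ⟨i, hi⟩ := hG j
  have h1 := hi (graph_e_mem G' j ht)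
  rw [segment_eq_image'] at h1
  obtain ⟨s, hs, hst⟩ := h1
  have h2 : G.e i s = G'.e j t := hst
  rw [← h2]
  exact H i s hs m z hz

theorem netOut_of (hTT : TopTT) (hN : NetLp) : NetOut := by
  intro p Ω Λ f o G D hp1 hp2 hΩ hc hΛ hf hAC hG hD hDp ε hε
  refine hN p Ω Λ f G D hp1 hp2 hΩ hΛ hf hD hDp (fun G' hG' ρ hρ => ?_) ε hε
  filter_upwards [hTT Ω Λ f o hΩ hc hΛ hf hAC G hG ρ hρ] with v hv
  obtain ⟨h, hh⟩ := hv
  exact ⟨h, sameCode_mono hG' hh⟩

end P073.Top
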