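import Vale.Agent.P073.AB.Spec
import Vale.Agent.P073.GB73.Spec
import Vale.Agent.P073.SMV.Spec
import Vale.Agent.P073.Spec.Top

/-!
# P073, block GAUGE: from NET, GB and SM to `AB.SpecGauge`

* `SpecCx`   : the cell complex (`Cx3`) of a dyadic partition.
* `SpecCell` : GB in ONE good cell, for a conical homeomorphism `h` (owners GBM3, GB1, GB73).
* `SpecCells`: all good cells, by iteration.
* `SpecLin`, `SpecLin2`: linearity spaces along segments and squares.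
* `SpecSmV`  : smoothing in `V = Fin 3 → ℝ`.
* `SpecGaugeOf`: the composition.
-/

open Set Metric Topology MeasureTheory Filter
open scoped ENNReal

namespace P073.Gauge

open Vale.Agent.P073.St (V Mat IsHomeo IsDiffeo IsBoundedDomain)
open Vale.Agent.P073.SQ (ev)
open Vale.Agent.P073.AB
open P073.GB73 (Cx3)
open P073.Net (dyc dyo)

/-- **(CX)** the conical cell complex of the dyadic partition `I`: the cells are the cubes of `I`,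
the tiles are the minimal squares, the arcs are the minimal edges. -/
structure DyCx (Ω : Set V) (v : V) (I : Set Idx) where
  Vx : Type
  B : Type
  J : Type
  e0 : B → Vx
  e1 : B → Vx
  inc : B → J → Prop
  qC : J → I → Prop
  K : Cx3 e0 e1 inc qC Ω
  cntB : Countable B
  /-- the minimal edges -/
  φ : B → Idx × Fin 3
  /-- the minimal squares -/
  ψ : J → Idx × Fin 3
  φinj : Function.Injective φ
  ψinj : Function.Injective ψ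
  y0 : ∀ b, K.y (e0 b) = pt v (φ b).1.1 (φ b).1.2
  y1 : ∀ b, K.y (e1 b) = pt v (φ b).1.1 (φ b).1.2 + (1 / 2 ^ (φ b).1.1 : ℝ) • ev (φ b).2
  arc : ∀ b, K.arc b = edge v (φ b)
  edgeOf : ∀ b, ∃ q ∈ I, EdgeOf (φ b) q
  edges : ∀ e, (∃ q ∈ I, EdgeOf e q) → ∃ S : Finset B, edge v e = ⋃ b ∈ S, edge v (φ b)
  tile : ∀ j, K.tile j = squ v (ψ j)
  minSq : ∀ j, MinSq v I (ψ j)
  allSq : ∀ s, MinSq v I s → ∃ j, ψ j = s
  cell : ∀ q : I, K.cell q = dyc v q.1.1 q.1.2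
  inc_iff : ∀ b j, inc b j ↔ edge v (φ b) ⊆ squ v (ψ j)
  qC_iff : ∀ j (q : I), qC j q ↔ squ v (ψ j) ⊆ dyc v q.1.1 q.1.2

def SpecCx : Prop :=
  ∀ (Ω : Set V) (v : V) (I : Set Idx), IsOpen Ω → Part Ω v I → Nonempty (DyCx Ω v I)

/-- parametrisation of the dyadic edge `e` by `[0,1]` -/
noncomputable def gam (v : V) (e : Idx × Fin 3) (t : ℝ) : V :=
  pt v e.1.1 e.1.2 + t • ((1 / 2 ^ e.1.1 : ℝ) • ev e.2)

/-- `∫₀¹ |(h ∘ γ_e)' - w|^p` -/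
noncomputable def dvar (p : ℝ) (h : V → V) (v : V) (e : Idx × Fin 3) (w : V) : ℝ≥0∞ :=
  ∫⁻ t in Icc (0:ℝ) 1, ENNReal.ofReal (‖deriv (fun s => h (gam v e s)) t - w‖ ^ p)

/-- The hypotheses on a good cell `z`, for the conical homeomorphism `h`: fine generation
`n₂ + k₁ + k₀`. -/
structure CellHyp (p θ M κ : ℝ) (k₁ k₀ n₂ : ℕ) (Λ : Set V) (v : V) (I : Set Idx)
    (z : Fin 3 → ℤ) (A : V → V) (L : V →L[ℝ] V) (h : V → V) : Prop where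
  aff : ∀ x y, A y - A x = L (y - x)
  below : ∀ w, θ * ‖w‖ ≤ ‖L w‖
  above : ∀ w, ‖L w‖ ≤ M * ‖w‖
  fine : ∀ z', (dyc v (n₂ + k₁ + k₀) z' ∩ dyc v n₂ z).Nonempty →
    ((n₂ + k₁ + k₀, z') : Idx) ∈ I
  own : ∀ e : Idx × Fin 3, e.1.1 = n₂ + k₁ + k₀ → edge v e ⊆ dyc v n₂ z →
    (∀ x ∈ edge v e, ‖h x - A x‖ ≤ κ / 2 ^ (n₂ + k₁ + k₀)) ∧
    dvar p h v e (L ((1 / 2 ^ (n₂ + k₁ + k₀) : ℝ) • ev e.2)) ≤
      ENNReal.ofReal (κ * (1 / 2 ^ (n₂ + k₁ + k₀)) ^ p)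
  foreign : ∀ e : Idx × Fin 3, (∃ q ∈ I, EdgeOf e q) → ¬ edge v e ⊆ dyc v n₂ z →
    ∀ x ∈ edge v e, h x ∉ A '' shrink v n₂ z (1 / 2 ^ (n₂ + k₁ + k₀))
  inside : A '' shrink v n₂ z (1 / 2 ^ (n₂ + k₁ + k₀)) ⊆ Λ

theorem CellHyp.fine_sub {p θ M κ : ℝ} {k₁ k₀ n₂ : ℕ} {Λ : Set V} {v : V} {I : Set Idx}
    {z : Fin 3 → ℤ} {A : V → V} {L : V →L[ℝ] V} {h : V → V}
    (H : CellHyp p θ M κ k₁ k₀ n₂ Λ v I z A L h) (z' : Fin 3 → ℤ)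
    (hz' : dyc v (n₂ + k₁ + k₀) z' ⊆ dyc v n₂ z) : ((n₂ + k₁ + k₀, z') : Idx) ∈ I := by
  apply H.fine z'
  have hx : pt v (n₂ + k₁ + k₀) z' ∈ dyc v (n₂ + k₁ + k₀) z' := by
    simp only [P073.Net.dyc, pt, mem_setOf_eq]
    intro k
    constructor
    · exact le_rfl
    · gcongr
      linarith
  exact ⟨_, hx, hz' hx⟩

/-- The conclusion for a good cell `z`: the new map `h'` is `A` on the protected box, has controlled
`p`-energy on the edges of generation `n₂ + k₁` of the gap. -/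
structure CellOut (p C : ℝ) (k₁ n₂ : ℕ) (v : V) (z : Fin 3 → ℤ) (A : V → V) (h' : V → V) :
    Prop where
  box : ∀ x ∈ boxR v n₂ k₁ z, h' x = A x
  gap : ∀ e : Idx × Fin 3, e.1.1 = n₂ + k₁ →
    edge v e ⊆ boxB v n₂ k₁ z \ interior (boxR v n₂ k₁ z) →
    ¬ edge v e ⊆ frontier (boxB v n₂ k₁ z) →
    (∀ x ∈ edge v e, ‖h' x - A x‖ ≤ 1 / 2 ^ (n₂ + 1)) ∧
    dvar p h' v e 0 ≤ ENNReal.ofReal (C * (1 / 2 ^ (n₂ + k₁)) ^ p)

/-- **(CELL)** GB in one good cell. `I'` are cubes (of previous protected boxes) which must not be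
changed. -/
def SpecCell : Prop :=
  ∀ (p θ M : ℝ), 1 ≤ p → 0 < θ → 0 < M → ∃ C > 0, ∀ k₁ : ℕ, 3 ≤ k₁ → ∃ k₀ : ℕ, ∃ κ > 0,
    ∀ (Ω Λ : Set V) (v : V) (I I' : Set Idx) (n₂ : ℕ) (z : Fin 3 → ℤ) (A : V → V)
      (L : V →L[ℝ] V) (h : ConHomeo Ω Λ), IsOpen Ω → IsOpen Λ → Part Ω v I →
      CellHyp p θ M κ k₁ k₀ n₂ Λ v I z A L h.toFun →
      I' ⊆ I → (∀ q ∈ I', Disjoint (dyc v q.1 q.2) (interior (dyc v n₂ z))) →
      (∀ q ∈ I', ∀ x ∈ dyc v q.1 q.2, h.toFun x ∉ A '' shrink v n₂ z (1 / 2 ^ (n₂ + k₁ + k₀))) →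
      ∃ h' : ConHomeo Ω Λ, CellOut p C k₁ n₂ v z A h'.toFun ∧
        (∀ e : Idx × Fin 3, (∃ q ∈ I, EdgeOf e q) → ∀ x ∈ edge v e,
          (x ∉ interior (boxB v n₂ k₁ z) → h'.toFun x = h.toFun x) ∧
          (h'.toFun x ∈ h.toFun '' edge v e ∨
            h'.toFun x ∈ A '' shrink v n₂ z (1 / 2 ^ (n₂ + k₁ + k₀)))) ∧
        ∀ q ∈ I', ∀ x ∈ dyc v q.1 q.2, h'.toFun x = h.toFun x

/-- **(CELLS)** all good cells -/
def SpecCells : Prop :=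
  ∀ (p θ M : ℝ), 1 ≤ p → 0 < θ → 0 < M → ∃ C > 0, ∀ k₁ : ℕ, 3 ≤ k₁ → ∃ k₀ : ℕ, ∃ κ > 0,
    ∀ (Ω Λ : Set V) (v : V) (I : Set Idx) (n₂ : ℕ) (J : Finset (Fin 3 → ℤ))
      (A : (Fin 3 → ℤ) → V → V) (L : (Fin 3 → ℤ) → V →L[ℝ] V) (h : ConHomeo Ω Λ),
      IsOpen Ω → IsOpen Λ → Part Ω v I →
      (∀ z ∈ J, CellHyp p θ M κ k₁ k₀ n₂ Λ v I z (A z) (L z) h.toFun) →
      (∀ z ∈ J, ∀ z' ∈ J, z ≠ z' →
        Disjoint (A z '' shrink v n₂ z (1 / 2 ^ (n₂ + k₁ + k₀)))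
          (A z' '' shrink v n₂ z' (1 / 2 ^ (n₂ + k₁ + k₀)))) →
      ∃ h' : ConHomeo Ω Λ, (∀ z ∈ J, CellOut p C k₁ n₂ v z (A z) h'.toFun) ∧
        ∀ e : Idx × Fin 3, (∃ q ∈ I, EdgeOf e q) →
          (∀ z ∈ J, Disjoint (edge v e) (interior (boxB v n₂ k₁ z))) →
          ∀ x ∈ edge v e, h'.toFun x = h.toFun x

/-- **(LIN)** along a segment, the direction of the segment is in the linearity space at all but
countably many points; there the derivative is the value of the tangent cone map; a conical map is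
Lipschitz on segments. -/
def SpecLin : Prop :=
  ∀ (Ω Λ : Set V) (h : ConHomeo Ω Λ) (a w : V), IsOpen Ω →
    (∀ t ∈ Icc (0:ℝ) 1, a + t • w ∈ Ω) →
    {t ∈ Icc (0:ℝ) 1 | w ∉ linSpace h.toFun (a + t • w)}.Countable ∧
    (∀ t ∈ Ioo (0:ℝ) 1, w ∈ linSpace h.toFun (a + t • w) →
      HasDerivAt (fun s : ℝ => h.toFun (a + s • w)) (tcone h.toFun (a + t • w) w) t) ∧
    ∃ K : NNReal, LipschitzOnWith K (fun s : ℝ => h.toFun (a + s • w)) (Icc 0 1)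

/-- **(LIN2)** the same for coordinate planes -/
def SpecLin2 : Prop :=
  ∀ (Ω Λ : Set V) (h : ConHomeo Ω Λ) (k : Fin 3) (c : ℝ), IsOpen Ω →
    ∀ᵐ x : V, Function.update x k c ∈ Ω →
      ∀ j, j ≠ k → ev j ∈ linSpace h.toFun (Function.update x k c)

/-- **(SMV)** smoothing, in `V` -/
def SpecSmV : Prop :=
  ∀ (Ω Λ : Set V) (h : ConHomeo Ω Λ) (p : ℝ) (μ : ℕ → Measure V) (τ : ℕ → V) (η : ℕ → ℝ)
    (ε : V → ℝ), 1 ≤ p → IsBoundedDomain Ω → IsBoundedDomain Λ →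
    (∀ i, ∀ K ⊆ Ω, IsCompact K → μ i K < ⊤) → (∀ i, ∀ x ∈ Ω, μ i {x} = 0) →
    (∀ K ⊆ Ω, IsCompact K → {i | μ i K ≠ 0}.Finite) →
    (∀ i, ∀ᵐ x ∂(μ i), x ∈ Ω → τ i ∈ linSpace h.toFun x) →
    (∀ i, 0 < η i) → ContinuousOn ε Ω → (∀ x ∈ Ω, 0 < ε x) →
    ∃ G : V → V, IsDiffeo Ω Λ G ∧ (∀ x ∈ Ω, ‖G x - h.toFun x‖ ≤ ε x) ∧
      ∀ i, ∫⁻ x in Ω, ENNReal.ofReal (‖fderiv ℝ G x (τ i) - tcone h.toFun x (τ i)‖ ^ p) ∂(μ i) ≤
        ENNReal.ofReal (η i)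

/-- **(GAUGE)** the composition -/
def SpecGaugeOf : Prop :=
  P073.Top.NetOut → SpecGraph → SpecTiles → SpecCells → SpecLin → SpecLin2 → SpecSmV → SpecGauge

end P073.Gauge
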