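import Vale.Agent.P073.Spec.Gauge2

/-!
# P073, block PLATE: the cell complex with subdivided faces, and GB of rank two in one plate

* `FaceT`     : a family `T` of dyadic squares which tiles the minimal squares of a partition.
* `TCx`       : the cell complex of a partition with faces subdivided by `T`; `SpecCxT`.
* `PlateHyp`, `PlateOut`, `SpecPlate`: GB in one plate, i.e. one planar good square.
* `SpecPlates`: all plates, by iteration.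
-/

open Set Metric Topology MeasureTheory Filter
open scoped ENNReal

namespace P073.Plate

open Vale.Agent.P073.St (V Mat IsHomeo IsDiffeo IsBoundedDomain)
open Vale.Agent.P073.SQ (ev)
open Vale.Agent.P073.AB
open P073.GB73 (Cx3 Prot)
open P073.Net (dyc dyo)
open P073.Gauge (gam dvar DyCx)

/-- `T` is a family of dyadic squares which tiles every minimal square of the partition `I` -/
structure FaceT (v : V) (I : Set Idx) (T : Set (Idx × Fin 3)) : Prop where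
  sub : ∀ s ∈ T, ∃ s', MinSq v I s' ∧ s'.2 = s.2 ∧ squ v s ⊆ squ v s'
  cover : ∀ s', MinSq v I s' → ∀ x ∈ squ v s', ∃ s ∈ T, s.2 = s'.2 ∧ squ v s ⊆ squ v s' ∧
    x ∈ squ v s
  disj : ∀ s ∈ T, ∀ s' ∈ T, s.2 = s'.2 → squ v s ⊆ squ v s' → s = s'
  fin : ∀ s', MinSq v I s' → {s | s ∈ T ∧ squ v s ⊆ squ v s'}.Finite

/-- **(CXT)** the conical cell complex of the dyadic partition `I` with faces subdivided by `T`:
the cells are the cubes of `I`, the tiles are the squares of `T`, the arcs are the minimal edges of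
the squares of `T`. -/
structure TCx (Ω : Set V) (v : V) (I : Set Idx) (T : Set (Idx × Fin 3)) where
  Vx : Type
  B : Type
  J : Type
  e0 : B → Vx
  e1 : B → Vx
  inc : B → J → Prop
  qC : J → I → Prop
  K : Cx3 e0 e1 inc qC Ω
  cntB : Countable B
  /-- the minimal edges -/
  φ : B → Idx × Fin 3
  /-- the squares -/
  ψ : J → Idx × Fin 3
  φinj : Function.Injective φ
  ψinj : Function.Injective ψ
  y0 : ∀ b, K.y (e0 b) = pt v (φ b).1.1 (φ b).1.2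
  y1 : ∀ b, K.y (e1 b) = pt v (φ b).1.1 (φ b).1.2 + (1 / 2 ^ (φ b).1.1 : ℝ) • ev (φ b).2
  arc : ∀ b, K.arc b = edge v (φ b)
  edgeOf : ∀ b, ∃ s ∈ T, EdgeOfSq (φ b) s
  edges : ∀ e, (∃ s ∈ T, EdgeOfSq e s) → ∃ S : Finset B, edge v e = ⋃ b ∈ S, edge v (φ b)
  tile : ∀ j, K.tile j = squ v (ψ j)
  rangeψ : range ψ = T
  cell : ∀ q : I, K.cell q = dyc v q.1.1 q.1.2
  inc_iff : ∀ b j, inc b j ↔ edge v (φ b) ⊆ squ v (ψ j)
  qC_iff : ∀ j (q : I), qC j q ↔ squ v (ψ j) ⊆ dyc v q.1.1 q.1.2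

def SpecCxT : Prop :=
  ∀ (Ω : Set V) (v : V) (I : Set Idx) (T : Set (Idx × Fin 3)), IsOpen Ω → Part Ω v I →
    FaceT v I T → Nonempty (TCx Ω v I T)

/-- box around the planar square `s = ((n, z), k)`: shrunk by `δ` in the plane, half
thickness `τ` -/
def pbox (v : V) (s : Idx × Fin 3) (δ τ : ℝ) : Set V :=
  {x | |x s.2 - (v s.2 + s.1.2 s.2 / 2 ^ s.1.1)| ≤ τ ∧ ∀ i, i ≠ s.2 →
    v i + s.1.2 i / 2 ^ s.1.1 + δ ≤ x i ∧ x i ≤ v i + (s.1.2 i + 1) / 2 ^ s.1.1 - δ}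

/-- relative interior of the planar square `pbox v s δ 0` -/
def prel (v : V) (s : Idx × Fin 3) (δ : ℝ) : Set V :=
  {x | x s.2 = v s.2 + s.1.2 s.2 / 2 ^ s.1.1 ∧ ∀ i, i ≠ s.2 →
    v i + s.1.2 i / 2 ^ s.1.1 + δ < x i ∧ x i < v i + (s.1.2 i + 1) / 2 ^ s.1.1 - δ}

/-- The hypotheses on a planar good square `s` of generation `s.1.1` (a plate), for the conical
homeomorphism `h`: the fine generation is `s.1.1 + k₁ + k₀`. The affine map `A` is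
three-dimensional; only its restriction to the plane matters for `h`, its direction transversal to
the plane only has to be transversal. -/
structure PlateHyp (p θ M κ : ℝ) (k₁ k₀ : ℕ) (Λ : Set V) (v : V) (I : Set Idx)
    (T : Set (Idx × Fin 3)) (s : Idx × Fin 3) (A : V → V) (L : V →L[ℝ] V) (h : V → V) : Prop where
  aff : ∀ x y, A y - A x = L (y - x)
  below : ∀ w, θ * ‖w‖ ≤ ‖L w‖
  above : ∀ w, ‖L w‖ ≤ M * ‖w‖
  /-- the square is well inside a minimal square of the partition -/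
  lone : ∃ s', MinSq v I s' ∧ s'.2 = s.2 ∧ pbox v s (-(1 / 2 ^ s.1.1)) 0 ⊆ squ v s'
  fine : ∀ s' : Idx × Fin 3, s'.1.1 = s.1.1 + k₁ + k₀ → s'.2 = s.2 →
    (squ v s' ∩ squ v s).Nonempty → s' ∈ T
  own : ∀ e : Idx × Fin 3, e.1.1 = s.1.1 + k₁ + k₀ → edge v e ⊆ squ v s →
    (∀ x ∈ edge v e, ‖h x - A x‖ ≤ κ / 2 ^ (s.1.1 + k₁ + k₀)) ∧
    dvar p h v e (L ((1 / 2 ^ (s.1.1 + k₁ + k₀) : ℝ) • ev e.2)) ≤
      ENNReal.ofReal (κ * (1 / 2 ^ (s.1.1 + k₁ + k₀)) ^ p)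
  foreign : ∀ e : Idx × Fin 3, (∃ s' ∈ T, EdgeOfSq e s') → ¬ edge v e ⊆ squ v s →
    ∀ x ∈ edge v e, h x ∉ A '' pbox v s (1 / 2 ^ (s.1.1 + k₁ + k₀)) (1 / 2 ^ (s.1.1 + k₁ + k₀))
  inside : A '' pbox v s (1 / 2 ^ (s.1.1 + k₁ + k₀)) (1 / 2 ^ (s.1.1 + k₁ + k₀)) ⊆ Λ

/-- The conclusion for a plate `s`: the new map `h'` is `A` on the protected planar square, and
has controlled `p`-energy on the edges of generation `s.1.1 + k₁` of the gap. -/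
structure PlateOut (p C : ℝ) (k₁ : ℕ) (v : V) (s : Idx × Fin 3) (A : V → V) (h' : V → V) :
    Prop where
  box : ∀ x ∈ pbox v s (2 / 2 ^ (s.1.1 + k₁)) 0, h' x = A x
  gap : ∀ e : Idx × Fin 3, e.1.1 = s.1.1 + k₁ →
    edge v e ⊆ pbox v s (1 / 2 ^ (s.1.1 + k₁)) 0 \ prel v s (2 / 2 ^ (s.1.1 + k₁)) →
    ¬ edge v e ⊆ pbox v s (1 / 2 ^ (s.1.1 + k₁)) 0 \ prel v s (1 / 2 ^ (s.1.1 + k₁)) →
    (∀ x ∈ edge v e, ‖h' x - A x‖ ≤ 1 / 2 ^ (s.1.1 + 1)) ∧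
    dvar p h' v e 0 ≤ ENNReal.ofReal (C * (1 / 2 ^ (s.1.1 + k₁)) ^ p)

/-- **(PLATE)** GB in one plate, for all large `k₀`, with a general protected set `Z`. -/
def SpecPlate : Prop :=
  ∀ (p θ M : ℝ), 1 ≤ p → 0 < θ → 0 < M → ∃ C > 0, ∀ k₁ : ℕ, 3 ≤ k₁ → ∃ K₀ : ℕ, ∀ k₀ ≥ K₀,
    ∃ κ > 0, ∀ (Ω Λ : Set V) (v : V) (I : Set Idx) (T : Set (Idx × Fin 3)) (D : TCx Ω v I T)
      (s : Idx × Fin 3) (A : V → V) (L : V →L[ℝ] V) (h : ConHomeo Ω Λ), IsOpen Ω → IsOpen Λ →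
      Part Ω v I → FaceT v I T → PlateHyp p θ M κ k₁ k₀ Λ v I T s A L h.toFun →
      ∀ Z : Set V, Prot D.K Z → Disjoint Z (squ v s) →
      (∀ x ∈ Z, h.toFun x ∉
        A '' pbox v s (1 / 2 ^ (s.1.1 + k₁ + k₀)) (1 / 2 ^ (s.1.1 + k₁ + k₀))) →
      ∃ h' : ConHomeo Ω Λ, PlateOut p C k₁ v s A h'.toFun ∧
        (∀ e : Idx × Fin 3, (∃ s' ∈ T, EdgeOfSq e s') → ∀ x ∈ edge v e,
          (x ∉ prel v s (1 / 2 ^ (s.1.1 + k₁)) → h'.toFun x = h.toFun x) ∧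
          (h'.toFun x ∈ h.toFun '' edge v e ∨ h'.toFun x ∈
            A '' pbox v s (1 / 2 ^ (s.1.1 + k₁ + k₀)) (1 / 2 ^ (s.1.1 + k₁ + k₀)))) ∧
        EqOn h'.toFun h.toFun Z

/-- **(PLATES)** all plates. The plates are pairwise different squares, none contained in another
one, with disjoint fat images. -/
def SpecPlates : Prop :=
  ∀ (p θ M : ℝ), 1 ≤ p → 0 < θ → 0 < M → ∃ C > 0, ∀ k₁ : ℕ, 3 ≤ k₁ → ∃ K₀ : ℕ, ∀ k₀ ≥ K₀,
    ∃ κ > 0, ∀ (Ω Λ : Set V) (v : V) (I : Set Idx) (T : Set (Idx × Fin 3)) (D : TCx Ω v I T)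
      (P : Finset (Idx × Fin 3)) (A : Idx × Fin 3 → V → V) (L : Idx × Fin 3 → V →L[ℝ] V)
      (h : ConHomeo Ω Λ), IsOpen Ω → IsOpen Λ → Part Ω v I → FaceT v I T →
      (∀ s ∈ P, PlateHyp p θ M κ k₁ k₀ Λ v I T s (A s) (L s) h.toFun) →
      (∀ s ∈ P, ∀ s' ∈ P, s ≠ s' → Disjoint (squ v s) (prel v s' 0)) →
      (∀ s ∈ P, ∀ s' ∈ P, s ≠ s' → Disjoint
        (A s '' pbox v s (1 / 2 ^ (s.1.1 + k₁ + k₀)) (1 / 2 ^ (s.1.1 + k₁ + k₀)))
        (A s' '' pbox v s' (1 / 2 ^ (s'.1.1 + k₁ + k₀)) (1 / 2 ^ (s'.1.1 + k₁ + k₀)))) →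
      ∀ Z : Set V, Prot D.K Z → (∀ s ∈ P, Disjoint Z (squ v s)) →
      (∀ s ∈ P, ∀ x ∈ Z, h.toFun x ∉
        A s '' pbox v s (1 / 2 ^ (s.1.1 + k₁ + k₀)) (1 / 2 ^ (s.1.1 + k₁ + k₀))) →
      ∃ h' : ConHomeo Ω Λ, (∀ s ∈ P, PlateOut p C k₁ v s (A s) h'.toFun) ∧
        (∀ e : Idx × Fin 3, (∃ s' ∈ T, EdgeOfSq e s') →
          (∀ s ∈ P, Disjoint (edge v e) (prel v s (1 / 2 ^ (s.1.1 + k₁)))) →
          ∀ x ∈ edge v e, h'.toFun x = h.toFun x) ∧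
        EqOn h'.toFun h.toFun Z

/-- iteration -/
def SpecPlatesOf : Prop := SpecPlate → SpecPlates

end P073.Plate
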